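import Vale.Agent.P092.H736.ExpLoc
import Mathlib.Analysis.SpecialFunctions.Exponential
import Mathlib.Analysis.Calculus.Implicit
import Mathlib.Analysis.Calculus.Deriv.Mul

/-!
P092, project RE-ADJ, block [AD-6], analytic part (helper624): an open mapping argument in a finite
dimensional normed algebra.
-/

set_option linter.all false

open Filter Topology

namespace Vale.Agent.P092.H624.Ad

variable {𝔸 : Type} [NormedRing 𝔸] [NormedAlgebra ℝ 𝔸] [FiniteDimensional ℝ 𝔸]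

/-- `V` is contained in the tangent space at `1` of a parametrised piece of `M` -/
def Good (M : Set 𝔸) (V : Submodule ℝ 𝔸) : Prop :=
  ∃ (E : Type) (_ : NormedAddCommGroup E) (_ : NormedSpace ℝ E) (_ : FiniteDimensional ℝ E)
    (F : E → 𝔸) (F' : E →L[ℝ] 𝔸), F 0 = 1 ∧ (∀ t, F t ∈ M) ∧
      HasStrictFDerivAt F F' 0 ∧ ∀ X ∈ V, ∃ t, F' t = X

theorem good_bot {M : Set 𝔸} (h1 : (1 : 𝔸) ∈ M) : Good M ⊥ := by
  refine ⟨ℝ, inferInstance, inferInstance, inferInstance, fun _ => 1, 0, rfl,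
    fun _ => h1, hasStrictFDerivAt_const _ _, fun X hX => ⟨0, ?_⟩⟩
  rw [Submodule.mem_bot] at hX
  rw [hX, map_zero]

theorem good_sup {M : Set 𝔸} (hm : ∀ a ∈ M, ∀ b ∈ M, a * b ∈ M) {V W : Submodule ℝ 𝔸}
    (hV : Good M V) (hW : Good M W) : Good M (V ⊔ W) := by
  obtain ⟨E₁, i1, i2, i3, F₁, D₁, h1, m1, d1, r1⟩ := hV
  obtain ⟨E₂, j1, j2, j3, F₂, D₂, h2, m2, d2, r2⟩ := hW
  have e1 : HasStrictFDerivAt (fun p : E₁ × E₂ => F₁ p.1)
      (D₁.comp (ContinuousLinearMap.fst ℝ E₁ E₂)) 0 :=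
    HasStrictFDerivAt.comp (0 : E₁ × E₂) (g := F₁) (f := Prod.fst) (by simpa using d1)
      hasStrictFDerivAt_fst
  have e2 : HasStrictFDerivAt (fun p : E₁ × E₂ => F₂ p.2)
      (D₂.comp (ContinuousLinearMap.snd ℝ E₁ E₂)) 0 :=
    HasStrictFDerivAt.comp (0 : E₁ × E₂) (g := F₂) (f := Prod.snd) (by simpa using d2)
      hasStrictFDerivAt_snd
  have e3 := HasStrictFDerivAt.fun_mul' e1 e2
  have e4 : HasStrictFDerivAt (fun p : E₁ × E₂ => F₁ p.1 * F₂ p.2)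
      (D₁.comp (ContinuousLinearMap.fst ℝ E₁ E₂) +
        D₂.comp (ContinuousLinearMap.snd ℝ E₁ E₂)) 0 := by
    refine e3.congr_fderiv ?_
    ext p <;> simp [h1, h2]
  refine ⟨E₁ × E₂, inferInstance, inferInstance, inferInstance, _, _, ?_, ?_, e4, ?_⟩
  · simp [h1, h2]
  · rintro ⟨t, s⟩
    exact hm _ (m1 t) _ (m2 s)
  · intro X hX
    obtain ⟨Y, hY, Z, hZ, rfl⟩ := Submodule.mem_sup.1 hX
    obtain ⟨t, ht⟩ := r1 Y hY
    obtain ⟨s, hs⟩ := r2 Z hZ
    exact ⟨(t, s), by simp [ht, hs]⟩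

/-- the conjugated commutator curves -/
theorem good_one {M : Set 𝔸} {a a' x x' X : 𝔸} (ha : a * a' = 1) (hx : x * x' = 1)
    (hM : ∀ t : ℝ, a * (NormedSpace.exp (t • X) * x * NormedSpace.exp (t • -X) * x') * a' ∈ M) :
    Good M (Submodule.span ℝ {a * (X - x * X * x') * a'}) := by
  haveI : CompleteSpace 𝔸 := FiniteDimensional.complete ℝ 𝔸
  have d1 := hasStrictDerivAt_exp_smul_const (𝕂 := ℝ) X (0 : ℝ)
  have d2 := hasStrictDerivAt_exp_smul_const (𝕂 := ℝ) (-X) (0 : ℝ)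
  simp only [zero_smul, NormedSpace.exp_zero, one_mul] at d1 d2
  have d3 := (d1.mul_const x).fun_mul d2
  have d4 := (d3.mul_const x')
  have d5 := (d4.const_mul a).mul_const a'
  have d6 := d5.hasStrictFDerivAt
  refine ⟨ℝ, inferInstance, inferInstance, inferInstance, _, _, ?_, hM, d6, ?_⟩
  · simp [hx, ha]
  · intro Y hY
    obtain ⟨c, rfl⟩ := Submodule.mem_span_singleton.1 hY
    refine ⟨c, ?_⟩
    have e : (X * x + -(x * X)) * x' = X - x * X * x' := by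
      rw [add_mul, mul_assoc X x x', hx]
      noncomm_ring
    simp [e]

theorem good_span {M : Set 𝔸} (h1 : (1 : 𝔸) ∈ M) (hm : ∀ a ∈ M, ∀ b ∈ M, a * b ∈ M)
    {B : Set 𝔸} (hB : ∀ X ∈ B, Good M (Submodule.span ℝ {X})) : Good M (Submodule.span ℝ B) := by
  classical
  have hfg : (Submodule.span ℝ B).FG := IsNoetherian.noetherian _
  obtain ⟨s, hs, he⟩ := (Submodule.fg_span_iff_fg_span_finset_subset B).1 hfg
  rw [he]
  clear he hfg
  induction s using Finset.induction_on with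
  | empty => simpa using good_bot h1
  | insert X s _ ih =>
    rw [Finset.coe_insert, Submodule.span_insert]
    refine good_sup hm (hB X (hs (by simp))) (ih ?_)
    exact fun Y hY => hs (by simp only [Finset.coe_insert, Set.mem_insert_iff]; exact Or.inr hY)

/-- **open mapping**: `H` closed, multiplicative, with Lie algebra `S`; `M ⊆ H` contains a
parametrised piece with tangent space containing `S`. Then `M` contains all elements of `H` near
`1`. -/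
theorem open_of_good {H M : Set 𝔸} (hc : IsClosed H) (hone : (1 : 𝔸) ∈ H)
    (hmul : ∀ a ∈ H, ∀ b ∈ H, a * b ∈ H)
    (hneg : ∀ A : 𝔸, NormedSpace.exp A ∈ H → NormedSpace.exp (-A) ∈ H)
    (S : Submodule ℝ 𝔸) (hS : ∀ X, X ∈ S ↔ ∀ t : ℝ, NormedSpace.exp (t • X) ∈ H)
    (hinv : ∀ a ∈ M, ∃ b ∈ H, b * a = 1) (hG : Good M S) :
    ∃ V ∈ 𝓝 (1 : 𝔸), ∀ a ∈ H, a ∈ V → a ∈ M := by
  haveI : CompleteSpace 𝔸 := FiniteDimensional.complete ℝ 𝔸
  obtain ⟨E, i1, i2, i3, F, F', hF, mF, dF, rF⟩ := hG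
  haveI : CompleteSpace E := FiniteDimensional.complete ℝ E
  obtain ⟨T, hT⟩ := S.exists_isCompl
  -- the projection onto `T` along `S`
  obtain ⟨P, hP⟩ : ∃ P : 𝔸 →L[ℝ] 𝔸, P = LinearMap.toContinuousLinearMap
    (T.projection S hT.symm) := ⟨_, rfl⟩
  have hPT : ∀ Z, P Z ∈ T := fun Z => by
    rw [hP]; exact Submodule.projection_apply_mem hT.symm Z
  have hPS : ∀ Z, Z - P Z ∈ S := fun Z => by
    have h1 : Z - P Z = S.projection T hT Z := by
      have h2 := Submodule.projection_add_projection_eq_self hT Z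
      have h3 : P Z = T.projection S hT.symm Z := by rw [hP]; rfl
      rw [h3]
      nth_rewrite 1 [← h2]
      abel
    rw [h1]
    exact Submodule.projection_apply_mem hT Z
  have e0 : HasStrictFDerivAt (NormedSpace.exp : 𝔸 → 𝔸) (1 : 𝔸 →L[ℝ] 𝔸) 0 :=
    hasStrictFDerivAt_exp_zero
  have e1 : HasStrictFDerivAt (fun p : E × 𝔸 => F p.1)
      (F'.comp (ContinuousLinearMap.fst ℝ E 𝔸)) 0 :=
    HasStrictFDerivAt.comp (0 : E × 𝔸) (g := F) (f := Prod.fst) (by simpa using dF)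
      hasStrictFDerivAt_fst
  have e2 : HasStrictFDerivAt (fun p : E × 𝔸 => NormedSpace.exp (P p.2))
      (P.comp (ContinuousLinearMap.snd ℝ E 𝔸)) 0 := by
    have h := HasStrictFDerivAt.comp (𝕜 := ℝ) (0 : E × 𝔸) (g := NormedSpace.exp)
      (g' := (1 : 𝔸 →L[ℝ] 𝔸)) (f := fun p : E × 𝔸 => P p.2)
      (f' := P.comp (ContinuousLinearMap.snd ℝ E 𝔸)) (by simpa using e0)
      (P.hasStrictFDerivAt.comp (0 : E × 𝔸) hasStrictFDerivAt_snd)
    exact h
  have e3 := HasStrictFDerivAt.fun_mul' e1 e2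
  have e4 : HasStrictFDerivAt (fun p : E × 𝔸 => F p.1 * NormedSpace.exp (P p.2))
      (F'.comp (ContinuousLinearMap.fst ℝ E 𝔸) +
        P.comp (ContinuousLinearMap.snd ℝ E 𝔸)) 0 := by
    refine e3.congr_fderiv ?_
    ext p <;> simp [hF]
  have hsurj : (F'.comp (ContinuousLinearMap.fst ℝ E 𝔸) +
        P.comp (ContinuousLinearMap.snd ℝ E 𝔸)).range = ⊤ := by
    rw [LinearMap.range_eq_top]
    intro Z
    obtain ⟨t, ht⟩ := rF _ (hPS Z)
    exact ⟨(t, Z), by simp [ht]⟩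
  have hmap := e4.map_nhds_eq_of_surj hsurj
  have hval : F (0 : E × 𝔸).1 * NormedSpace.exp (P (0 : E × 𝔸).2) = 1 := by
    simp [hF]
  rw [hval] at hmap
  obtain ⟨δ, hδ, hinj⟩ := H736.ExpLoc.exp_inj (𝔸 := 𝔸)
  obtain ⟨V, hV, hlog⟩ := H736.ExpLoc.log_nhds hc hone hmul hneg S hS
    (Metric.ball_mem_nhds (0 : 𝔸) hδ)
  have hexpc : Continuous (NormedSpace.exp : 𝔸 → 𝔸) := by
    letI : NormedAlgebra ℚ 𝔸 := NormedAlgebra.restrictScalars ℚ ℝ 𝔸
    exact NormedSpace.exp_continuous (𝔸 := 𝔸)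
  have hcont : Continuous fun p : E × 𝔸 => P p.2 := P.continuous.comp continuous_snd
  have hU1 : {p : E × 𝔸 | P p.2 ∈ Metric.ball (0 : 𝔸) δ} ∈ 𝓝 (0 : E × 𝔸) := by
    refine hcont.continuousAt.preimage_mem_nhds ?_
    simpa using Metric.ball_mem_nhds (0 : 𝔸) hδ
  have hU2 : {p : E × 𝔸 | NormedSpace.exp (P p.2) ∈ V} ∈ 𝓝 (0 : E × 𝔸) := by
    have hc2 : Continuous fun p : E × 𝔸 => NormedSpace.exp (P p.2) :=
      hexpc.comp hcont
    refine hc2.continuousAt.preimage_mem_nhds ?_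
    simpa using hV
  have hW := image_mem_map (m := fun p : E × 𝔸 => F p.1 * NormedSpace.exp (P p.2))
    (inter_mem hU1 hU2)
  rw [hmap] at hW
  refine ⟨_, hW, ?_⟩
  rintro a haH ⟨⟨t, Y⟩, ⟨hY1, hY2⟩, rfl⟩
  simp only [Set.mem_setOf_eq, mem_ball_zero_iff] at hY1 hY2 haH ⊢
  obtain ⟨b, hb, hbF⟩ := hinv _ (mF t)
  have h1 : NormedSpace.exp (P Y) ∈ H := by
    have := hmul _ hb _ haH
    rwa [← mul_assoc, hbF, one_mul] at this
  obtain ⟨X, hX, hXS, hXe⟩ := hlog _ h1 hY2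
  have h2 : P Y = X := hinj _ _ hY1 (by simpa using hX) hXe
  have h3 : P Y = 0 := by
    have := hT.disjoint.le_bot ⟨h2 ▸ hXS, hPT Y⟩
    simpa using this
  rw [h3, NormedSpace.exp_zero, mul_one]
  exact mF t

end Vale.Agent.P092.H624.Ad
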