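import Vale.Agent.P092.H793.Re.L2
import Vale.Agent.P092.H736.ReLog
import Vale.Agent.P092.H259.Ad.Defs
import Vale.Agent.P092.H624.Ad.Gd
import Mathlib.Topology.Algebra.OpenSubgroup

/-!
P092, project RE-ADJ, block [AD-6] (helper624): a closed connected group of matrices with an
irreducible adjoint action on its Lie algebra is simple modulo its centre.
-/

set_option linter.all false

open Matrix Filter Topology

namespace Vale.Agent.P092.H624.Ad

open Vale.Agent.P092.H793.Re (Mat SLn Lie lie_conj lie_smul lie_sub lie_add lieS mem_lieS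
  coe_inv_mul coe_mul_inv coe_inv exp_mem isUnit_coe emb_mat)

attribute [local instance] Matrix.linftyOpNormedRing Matrix.linftyOpNormedAlgebra

variable {n : ℕ} {G : Type} [Group G] [TopologicalSpace G] {ρ : G →* SLn n}

theorem coe_mul' (g h : G) : (ρ (g * h)).1 = (ρ g).1 * (ρ h).1 := by
  rw [map_mul, Matrix.SpecialLinearGroup.coe_mul]

theorem coe_one' : (ρ (1 : G)).1 = 1 := by
  rw [map_one, Matrix.SpecialLinearGroup.coe_one]

/-- a subgroup containing all elements near `1` is everything in a connected group -/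
theorem eq_top_of_near (he : IsClosedEmbedding ρ) (hcn : PreconnectedSpace G) (N : Subgroup G)
    {V : Set (Mat n)} (hV : V ∈ 𝓝 (1 : Mat n)) (h : ∀ g, (ρ g).1 ∈ V → g ∈ N) : N = ⊤ := by
  haveI : IsTopologicalGroup G := he.isInducing.topologicalGroup ρ
  have hc : Continuous fun g : G => (ρ g).1 := (emb_mat he).continuous
  have h1 : (fun g : G => (ρ g).1) ⁻¹' V ∈ 𝓝 (1 : G) := by
    refine hc.continuousAt.preimage_mem_nhds ?_
    rw [coe_one']; exact hV
  have h2 : (N : Set G) ∈ 𝓝 (1 : G) := mem_of_superset h1 h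
  have ho : IsOpen (N : Set G) := N.isOpen_of_mem_nhds h2
  have hcl : IsClosed (N : Set G) := N.isClosed_of_isOpen ho
  have h3 : IsClopen (N : Set G) := ⟨hcl, ho⟩
  have h4 := h3.eq_univ ⟨1, N.one_mem⟩
  rw [← Subgroup.coe_top] at h4
  exact SetLike.coe_injective h4

/-- an element which commutes with the Lie algebra is central -/
theorem center_of_lie (he : IsClosedEmbedding ρ) (hcn : PreconnectedSpace G) {x : G}
    (h : ∀ X, Lie ρ X → (ρ x).1 * X = X * (ρ x).1) : x ∈ Subgroup.center G := by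
  obtain ⟨V, hV, hlog⟩ := H736.Re.log_nhds he (lieS he) (fun X => Iff.rfl) (U := Set.univ)
    Filter.univ_mem
  have h1 : Subgroup.centralizer {x} = (⊤ : Subgroup G) := by
    refine eq_top_of_near he hcn _ hV fun g hg => ?_
    obtain ⟨X, -, hX, hgX⟩ := hlog g hg
    rw [Subgroup.mem_centralizer_singleton_iff]
    apply (emb_mat he).injective
    show (ρ (g * x)).1 = (ρ (x * g)).1
    rw [coe_mul', coe_mul', hgX]
    have h2 : Commute (ρ x).1 X := h X hX
    exact (h2.exp_right.eq).symm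
  rw [Subgroup.mem_center_iff]
  intro g
  have h2 : g ∈ Subgroup.centralizer {x} := by rw [h1]; trivial
  exact Subgroup.mem_centralizer_singleton_iff.1 h2

/-- **[AD-6]** -/
theorem simB : H259.Ad.SimB := by
  intro n G _ _ ρ he hcn hirr N hN
  by_contra hcon
  push Not at hcon
  obtain ⟨hnc, hnt⟩ := hcon
  obtain ⟨x, hx, hxc⟩ := SetLike.not_le_iff_exists.1 hnc
  have hex : ∃ X, Lie ρ X ∧ X - (ρ x).1 * X * (ρ x⁻¹).1 ≠ 0 := by
    by_contra hall
    push Not at hall
    apply hxc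
    refine center_of_lie he hcn fun X hX => ?_
    have h1 := sub_eq_zero.1 (hall X hX)
    calc (ρ x).1 * X = (ρ x).1 * X * ((ρ x⁻¹).1 * (ρ x).1) := by rw [coe_inv_mul, mul_one]
      _ = ((ρ x).1 * X * (ρ x⁻¹).1) * (ρ x).1 := by simp only [Matrix.mul_assoc]
      _ = X * (ρ x).1 := by rw [← h1]
  obtain ⟨X, hX, hne⟩ := hex
  obtain ⟨Z, hZ⟩ : ∃ Z, Z = X - (ρ x).1 * X * (ρ x⁻¹).1 := ⟨_, rfl⟩
  obtain ⟨B, hB⟩ : ∃ B : Set (Mat n), B = {Y | ∃ g, Y = (ρ g).1 * Z * (ρ g⁻¹).1} := ⟨_, rfl⟩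
  have hZL : Lie ρ Z := by rw [hZ]; exact lie_sub he hX (lie_conj x hX)
  have hSL : Submodule.span ℝ B ≤ lieS he := by
    rw [Submodule.span_le]
    intro Y hY
    rw [hB] at hY
    obtain ⟨g, rfl⟩ := hY
    exact lie_conj g hZL
  have hZB : Z ∈ Submodule.span ℝ B := Submodule.subset_span (by
    rw [hB]; exact ⟨1, by rw [inv_one, coe_one', Matrix.one_mul, Matrix.mul_one]⟩)
  have hinvS : ∀ g, ∀ Y ∈ Submodule.span ℝ B, (ρ g).1 * Y * (ρ g⁻¹).1 ∈ Submodule.span ℝ B := by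
    intro g Y hY
    induction hY using Submodule.span_induction with
    | mem Y hY =>
      rw [hB] at hY
      obtain ⟨g', rfl⟩ := hY
      refine Submodule.subset_span ?_
      rw [hB]
      refine ⟨g * g', ?_⟩
      rw [_root_.mul_inv_rev, coe_mul', coe_mul']
      simp only [Matrix.mul_assoc]
    | zero => rw [Matrix.mul_zero, Matrix.zero_mul]; exact Submodule.zero_mem _
    | add Y Y' _ _ h1 h2 => rw [Matrix.mul_add, Matrix.add_mul]; exact Submodule.add_mem _ h1 h2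
    | smul c Y _ h1 =>
      rw [Matrix.mul_smul, Matrix.smul_mul]; exact Submodule.smul_mem _ _ h1
  rcases hirr (Submodule.span ℝ B) (fun Y hY => hSL hY) hinvS with h0 | hall
  · rw [h0, Submodule.mem_bot] at hZB
    exact hne (hZ ▸ hZB)
  have hSe : Submodule.span ℝ B = lieS he := le_antisymm hSL fun Y hY => hall Y hY
  apply hnt
  -- the image of `N`
  obtain ⟨M, hM⟩ : ∃ M : Set (Mat n), M = {A | ∃ y ∈ N, (ρ y).1 = A} := ⟨_, rfl⟩
  have hM1 : (1 : Mat n) ∈ M := by rw [hM]; exact ⟨1, N.one_mem, coe_one'⟩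
  have hMm : ∀ a ∈ M, ∀ b ∈ M, a * b ∈ M := by
    rw [hM]
    rintro a ⟨y, hy, rfl⟩ b ⟨z, hz, rfl⟩
    exact ⟨y * z, N.mul_mem hy hz, coe_mul' _ _⟩
  have hGood : Good M (lieS he) := by
    rw [← hSe]
    refine good_span hM1 hMm fun Y hY => ?_
    rw [hB] at hY
    obtain ⟨g, rfl⟩ := hY
    rw [hZ]
    refine good_one (coe_mul_inv g) (coe_mul_inv x) fun t => ?_
    obtain ⟨y, hy⟩ := hX t
    rw [hM]
    refine ⟨g * (y * x * y⁻¹ * x⁻¹) * g⁻¹, hN.conj_mem _
      (N.mul_mem (hN.conj_mem _ hx _) (N.inv_mem hx)) _, ?_⟩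
    have hyi : (ρ y⁻¹).1 = NormedSpace.exp (t • -X) := by
      rw [coe_inv, hy, smul_neg, Matrix.exp_neg]
    simp only [coe_mul', hy, hyi]
    rfl
  obtain ⟨V, hV, hop⟩ := open_of_good (𝔸 := Mat n) (H := {A : Mat n | ∃ g, (ρ g).1 = A}) (M := M)
    (H736.Re.isClosed_img he) ⟨1, coe_one'⟩ (by
      rintro a ⟨g, rfl⟩ b ⟨g', rfl⟩
      exact ⟨g * g', coe_mul' _ _⟩) (fun A hA => H736.Re.mem_neg hA) (lieS he)
    (fun X => Iff.rfl) (by
      rw [hM]
      rintro a ⟨y, hy, rfl⟩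
      exact ⟨_, ⟨y⁻¹, rfl⟩, coe_inv_mul y⟩) hGood
  refine eq_top_of_near he hcn N hV fun g hg => ?_
  have h1 := hop _ ⟨g, rfl⟩ hg
  rw [hM] at h1
  obtain ⟨y, hy, hyg⟩ := h1
  have h2 : y = g := (emb_mat he).injective hyg
  rw [← h2]; exact hy

end Vale.Agent.P092.H624.Ad
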